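import Mathlib

/-!
# Functionals on square matrices that only see the determinant

Let `W` be a submonoid which is the complement of finitely many primes.  A functional on matrices
with determinant in `W` that is additive on products and on block triangular matrices is the
functional of the determinant.
-/

namespace Vale.Agent.P177

open Matrix

variable {D : Type*} [CommRing D] {A : Type*} [AddCommGroup A]

/-- A translate of an element by an ideal avoids finitely many primes, as soon as no prime contains
both the element and the ideal. -/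
theorem exists_add_avoid (J : Ideal D) (a : D) (S : Finset (Ideal D))
    (hS : ∀ P ∈ S, P.IsPrime) (h : ∀ P ∈ S, a ∈ P → ¬ J ≤ P) :
    ∃ j ∈ J, ∀ P ∈ S, a + j ∉ P := by
  classical
  induction hc : S.card using Nat.strong_induction_on generalizing S with
  | _ n ih =>
    subst hc
    rcases S.eq_empty_or_nonempty with rfl | hne
    · exact ⟨0, J.zero_mem, by simp⟩
    obtain ⟨P, hP, hmin⟩ := S.exists_minimal hne
    have := hS P hP
    obtain ⟨j, hj, hav⟩ := ih (S.erase P).card (Finset.card_erase_lt_of_mem hP) (S.erase P)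
      (fun Q hQ => hS Q (Finset.mem_of_mem_erase hQ))
      (fun Q hQ => h Q (Finset.mem_of_mem_erase hQ)) rfl
    by_cases hjP : a + j ∈ P
    swap
    · exact ⟨j, hj, fun Q hQ => if e : Q = P then e ▸ hjP else hav Q (Finset.mem_erase.2 ⟨e, hQ⟩)⟩
    have hJ : ¬ J ≤ P := by
      intro hJ
      exact h P hP ((P.add_mem_iff_left (hJ hj)).1 hjP) hJ
    obtain ⟨j', hj', hj'P⟩ := SetLike.not_le_iff_exists.1 hJ
    have hs : ∀ Q ∈ S.erase P, ∃ s ∈ Q, s ∉ P := fun Q hQ => by
      refine SetLike.not_le_iff_exists.1 fun hle => ?_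
      exact (Finset.ne_of_mem_erase hQ)
        (le_antisymm hle (hmin (Finset.mem_of_mem_erase hQ) hle))
    choose s hs hsP using hs
    set t := ∏ Q ∈ (S.erase P).attach, s Q.1 Q.2 with ht
    have htP : t ∉ P := by
      rw [ht, Ideal.IsPrime.prod_mem_iff]
      rintro ⟨Q, -, hQ⟩
      exact hsP _ _ hQ
    refine ⟨j + t * j', J.add_mem hj (J.mul_mem_left _ hj'), fun Q hQ => ?_⟩
    by_cases e : Q = P
    · subst e
      rw [← add_assoc, Ideal.add_mem_iff_right _ hjP]
      intro hmem
      rcases Ideal.IsPrime.mem_or_mem inferInstance hmem with h1 | h1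
      · exact htP h1
      · exact hj'P h1
    · have hQe := Finset.mem_erase.2 ⟨e, hQ⟩
      rw [← add_assoc, Ideal.add_mem_iff_left]
      · exact hav Q hQe
      · refine Q.mul_mem_right _ ?_
        exact Ideal.mem_of_dvd _ (Finset.dvd_prod_of_mem _ (Finset.mem_attach _ ⟨Q, hQe⟩))
          (hs Q hQe)

/-- The axioms of a functional on matrices of determinant in `W`. -/
structure IsMatrixEuler (W : Submonoid D) (φ : ∀ n, Matrix (Fin n) (Fin n) D → A) : Prop where
  map_mul : ∀ n (M N : Matrix (Fin n) (Fin n) D), M.det ∈ W →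
    N.det ∈ W → φ n (M * N) = φ n M + φ n N
  map_upper : ∀ n (M : Matrix (Fin (n + 1)) (Fin (n + 1)) D), M.det ∈ W →
    (∀ i : Fin n, M i.succ 0 = 0) →
    φ (n + 1) M = φ 1 (Matrix.of fun _ _ => M 0 0) + φ n (M.submatrix Fin.succ Fin.succ)
  map_lower : ∀ n (M : Matrix (Fin (n + 1)) (Fin (n + 1)) D), M.det ∈ W →
    (∀ j : Fin n, M 0 j.succ = 0) →
    φ (n + 1) M = φ 1 (Matrix.of fun _ _ => M 0 0) + φ n (M.submatrix Fin.succ Fin.succ)

namespace IsMatrixEuler

variable {W : Submonoid D} {φ : ∀ n, Matrix (Fin n) (Fin n) D → A} (hφ : IsMatrixEuler W φ)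

/-- The value of a scalar. -/
abbrev scal (φ : ∀ n, Matrix (Fin n) (Fin n) D → A) (x : D) : A := φ 1 (Matrix.of fun _ _ => x)

include hφ

theorem map_one (n : ℕ) : φ n 1 = 0 := by
  have h := hφ.map_mul n 1 1 (by simp) (by simp)
  rw [one_mul] at h
  simpa using h

theorem scal_one : scal φ 1 = 0 := by
  have : (Matrix.of fun _ _ => (1 : D) : Matrix (Fin 1) (Fin 1) D) = 1 := by
    ext i j; fin_cases i; fin_cases j; simp
  simpa only [scal, this] using hφ.map_one 1

theorem scal_mul {x y : D} (hx : x ∈ W) (hy : y ∈ W) :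
    scal φ (x * y) = scal φ x + scal φ y := by
  have e : (Matrix.of fun _ _ => x * y : Matrix (Fin 1) (Fin 1) D)
      = (Matrix.of fun _ _ => x) * Matrix.of fun _ _ => y := by
    ext i j; simp [Matrix.mul_apply]
  rw [scal, e]
  exact hφ.map_mul 1 _ _ (by simpa using hx) (by simpa using hy)

theorem scal_pow {x : D} (hx : x ∈ W) (n : ℕ) :
    scal φ (x ^ n) = n • scal φ x := by
  induction n with
  | zero => simpa using hφ.scal_one
  | succ n ih => rw [pow_succ, hφ.scal_mul (pow_mem hx n) hx, ih, succ_nsmul]

theorem map_diagonal {x : D} (hx : x ∈ W) (n : ℕ) :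
    φ n (Matrix.diagonal fun _ => x) = n • scal φ x := by
  induction n with
  | zero =>
    rw [zero_nsmul, show (Matrix.diagonal fun _ : Fin 0 => x) = 1 from Subsingleton.elim _ _]
    exact hφ.map_one 0
  | succ n ih =>
    rw [hφ.map_upper n _ ?_ fun i => Matrix.diagonal_apply_ne _ (Fin.succ_ne_zero i),
      Matrix.submatrix_diagonal _ _ (Fin.succ_injective n)]
    · simp only [Matrix.diagonal_apply_eq]
      rw [succ_nsmul', ← ih]
      rfl
    · rw [Matrix.det_diagonal]
      exact prod_mem fun i _ => hx

/-- The functional of a matrix is the functional of its determinant. -/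
theorem eq_det {S : Finset (Ideal D)} (hS : ∀ P ∈ S, P.IsPrime)
    (hnzd : ∀ x : D, x ∈ W ↔ ∀ P ∈ S, x ∉ P) (n : ℕ)
    (M : Matrix (Fin n) (Fin n) D) (hM : M.det ∈ W) :
    φ n M = scal φ M.det := by
  induction n with
  | zero =>
    rw [show M = 1 from Subsingleton.elim _ _, hφ.map_one, Matrix.det_one, hφ.scal_one]
  | succ n ih =>
    -- make the corner a non-zero-divisor
    obtain ⟨j, hj, hav⟩ := exists_add_avoid
      (Ideal.span (Set.range fun i : Fin n => M i.succ 0)) (M 0 0) S hS (by
        intro P hP h0 hle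
        refine (hnzd _).1 hM P hP ?_
        rw [Matrix.det_succ_column_zero]
        refine P.sum_mem fun i _ => P.mul_mem_right _ (P.mul_mem_left _ ?_)
        cases i using Fin.cases with
        | zero => exact h0
        | succ i => exact hle (Ideal.subset_span ⟨i, rfl⟩))
    obtain ⟨r, rfl⟩ := Ideal.mem_span_range_iff_exists_fun.1 hj
    set x := M 0 0 + ∑ i, r i * M i.succ 0 with hx
    have hxn : x ∈ W := (hnzd _).2 hav
    let E : Matrix (Fin (n + 1)) (Fin (n + 1)) D :=
      Matrix.of fun i k => Fin.cases ((Fin.cons 1 r : Fin (n + 1) → D) k) (fun i' => if i'.succ = k then 1 else 0) i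
    have hE0 : ∀ i : Fin n, E i.succ 0 = 0 := fun i => by simp [E, Fin.succ_ne_zero]
    have hEs : E.submatrix Fin.succ Fin.succ = 1 := by
      ext i k; simp [E, Matrix.one_apply]
    have hE1 : E.det = 1 := by
      rw [Matrix.det_of_isUpperTriangular]
      · refine Finset.prod_eq_one fun i _ => ?_
        cases i using Fin.cases <;> simp [E]
      · intro i k hik
        cases i using Fin.cases with
        | zero => exact absurd hik (Fin.not_lt_zero _)
        | succ i => simp [E, (ne_of_gt hik : i.succ ≠ k)]
    have hE : φ (n + 1) E = 0 := by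
      rw [hφ.map_upper n E (by simp [hE1]) hE0, hEs, hφ.map_one, add_zero]
      simpa [E] using hφ.scal_one
    set N := E * M with hN
    have hN00 : N 0 0 = x := by
      rw [hN, Matrix.mul_apply, Fin.sum_univ_succ, hx]
      simp [E]
    have hNd : N.det = M.det := by rw [hN, Matrix.det_mul, hE1, one_mul]
    have hNs : φ (n + 1) N = φ (n + 1) M := by
      rw [hN, hφ.map_mul _ _ _ (by simp [hE1]) hM, hE, zero_add]
    -- eliminate the first column
    let L : Matrix (Fin (n + 1)) (Fin (n + 1)) D :=
      Matrix.of fun i k => if i = k then 1 else if k = 0 then -N i 0 else 0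
    let G : Matrix (Fin (n + 1)) (Fin (n + 1)) D :=
      Matrix.diagonal (Fin.cons 1 fun _ => x : Fin (n + 1) → D)
    have hL1 : L.det = 1 := by
      rw [Matrix.det_of_isLowerTriangular]
      · exact Finset.prod_eq_one fun i _ => by simp [L]
      · intro i k (hik : i < k)
        have : k ≠ 0 := fun h => by subst h; exact absurd hik (Fin.not_lt_zero _)
        simp [L, hik.ne, this]
    have hL : φ (n + 1) L = 0 := by
      rw [hφ.map_lower n L (by simp [hL1]) fun k => by simp [L, (Fin.succ_ne_zero k).symm, Fin.succ_ne_zero],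
        show L.submatrix Fin.succ Fin.succ = 1 from by
          ext i k; simp [L, Matrix.one_apply, Fin.succ_ne_zero], hφ.map_one, add_zero]
      simpa [L] using hφ.scal_one
    have hG1 : G.det = x ^ n := by
      simp [G, Matrix.det_diagonal, Fin.prod_univ_succ]
    have hG : φ (n + 1) G = n • scal φ x := by
      rw [hφ.map_upper n G (by rw [hG1]; exact pow_mem hxn n)
          fun i => Matrix.diagonal_apply_ne _ (Fin.succ_ne_zero i),
        Matrix.submatrix_diagonal _ _ (Fin.succ_injective n)]
      simp only [G, Matrix.diagonal_apply_eq, Fin.cons_zero]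
      rw [show (Fin.cons (1 : D) (fun _ => x) : Fin (n + 1) → D) ∘ Fin.succ = fun _ => x from rfl,
        hφ.map_diagonal hxn]
      have h1 := hφ.scal_one
      rw [scal] at h1
      rw [h1, zero_add]
    set K := L * G with hK
    have hK1 : K.det = x ^ n := by rw [hK, Matrix.det_mul, hL1, hG1, one_mul]
    have hKe : ∀ i : Fin n, (K * N) i.succ 0 = 0 := fun i => by
      have key : ∀ k, K i.succ k = if k = 0 then -N i.succ 0 else if i.succ = k then x else 0 := by
        intro k
        simp only [hK, G, Matrix.mul_diagonal]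
        cases k using Fin.cases with
        | zero => simp [L, Fin.succ_ne_zero]
        | succ k =>
          by_cases h : i.succ = k.succ
          · simp [L, Fin.succ_inj.1 h, Fin.succ_ne_zero]
          · simp [L, h, Fin.succ_ne_zero]
      rw [Matrix.mul_apply, Fin.sum_univ_succ, key]
      simp only [key, Fin.succ_ne_zero, if_false, if_true]
      rw [Finset.sum_eq_single i]
      · simp [hN00]; ring
      · intro k _ hk; simp [Ne.symm hk]
      · simp
    have hKN00 : (K * N) 0 0 = x := by
      rw [Matrix.mul_apply, Finset.sum_eq_single 0]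
      · simp [hK, G, L, Matrix.mul_diagonal, hN00]
      · intro k _ hk
        simp [hK, G, L, Matrix.mul_diagonal, hk, Ne.symm hk]
      · simp
    have hKNd : (K * N).det = x * ((K * N).submatrix Fin.succ Fin.succ).det := by
      rw [Matrix.det_succ_column_zero, Fin.sum_univ_succ]
      simp [hKe, hKN00]
    have hdet : (K * N).det = x ^ n * M.det := by rw [Matrix.det_mul, hK1, hNd]
    have hKNn : (K * N).det ∈ W := by
      rw [hdet]; exact mul_mem (pow_mem hxn n) hM
    have hsub : ((K * N).submatrix Fin.succ Fin.succ).det ∈ W :=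
      (hnzd _).2 fun P hP h => (hnzd _).1 (hKNd ▸ hKNn) P hP (P.mul_mem_left _ h)
    have h1 := hφ.map_upper n (K * N) hKNn hKe
    rw [ih _ hsub, hKN00, hφ.map_mul _ K N (by rw [hK1]; exact pow_mem hxn n) (hNd ▸ hM), hK,
      hφ.map_mul _ L G (by simp [hL1]) (by rw [hG1]; exact pow_mem hxn n), hL, hG, zero_add,
      hNs, ← hK] at h1
    change n • scal φ x + φ (n + 1) M = scal φ x + scal φ _ at h1
    have h2 : scal φ ((K * N).det) = scal φ x + scal φ ((K * N).submatrix Fin.succ Fin.succ).det := by
      rw [hKNd, hφ.scal_mul hxn hsub]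
    rw [← h2, hdet, hφ.scal_mul (pow_mem hxn n) hM, hφ.scal_pow hxn] at h1
    exact add_left_cancel h1

end IsMatrixEuler

end Vale.Agent.P177
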